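import Vale.Agent.P232.T1.Nodes
import Vale.Agent.P232.Phase1.Spec

/-!
# P232 phase 1: the integer checker of the box cover

All numbers are integers in units of `2⁻¹⁶`.
-/

open MeasureTheory Set Filter
open scoped Real Topology

noncomputable section

namespace Vale.Agent.P232.Phase1.Cover

open Calib (Knot Valid interp lastT lastT_ge)
open T1 (Checked CondI CondII cFun trapIn)

/-- The unit. -/
abbrev unitS : ℤ := 65536

/-- A knot: area, `c`, `s` and a lower bound `r` for `√(π min (t, 1 - t))`. -/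
structure IK where
  t : ℤ
  c : ℤ
  s : ℤ
  r : ℤ

/-- The certificate of one box. -/
structure Leaf where
  lam : ℤ
  E : ℤ
  mu : ℤ
  tube : Bool
  W : ℤ
  al : ℤ
  be : ℤ
  ks : List IK

/-- The subdivision tree: axis `0` is `V`, `1` is `a`, `2` is `b`. -/
inductive Tree where
  | empty
  | leaf (L : Leaf)
  | split (axis : ℕ) (m : ℤ) (l r : Tree)

/-- A box in `(V, a, b)`. -/
structure Box where
  v0 : ℤ
  v1 : ℤ
  a0 : ℤ
  a1 : ℤ
  b0 : ℤ
  b1 : ℤ

def disc (k : IK) : Bool :=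
  decide (0 ≤ k.c) && decide (0 ≤ k.s) && decide (k.c * k.c + k.s * k.s ≤ unitS * unitS)

def validB : List IK → Bool
  | [] => true
  | [k] => disc k
  | k :: k' :: r => disc k && decide (k.t < k'.t) && validB (k' :: r)

def condIB (L : Leaf) (k : IK) : Bool :=
  decide (0 ≤ k.r) &&
  decide (k.r * k.r * 100000000 ≤ 314159265 * min k.t (unitS - k.t) * unitS) &&
  decide (L.lam * k.t + L.E * unitS ≤ k.c * k.r)

def condIIB (L : Leaf) (k : IK) : Bool :=
  decide (L.lam * k.t + L.E * unitS - L.mu * (k.t - 20861) ≤ k.c * unitS)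

def checkedB (L : Leaf) : List IK → Bool
  | [] => true
  | [k] => condIB L k
  | k :: k' :: r => condIB L k &&
      (decide (k'.t ≤ 20860) || decide (unitS - 20860 ≤ k.t) || (condIIB L k && condIIB L k')) &&
      checkedB L (k' :: r)

def trap2 (lo hi : ℤ) : List IK → ℤ
  | [] => 0
  | [_] => 0
  | k :: k' :: r =>
    (if lo ≤ k.t ∧ k'.t ≤ hi then (k'.t - k.t) * (k.s + k'.s) else 0) + trap2 lo hi (k' :: r)

def lastI : IK → List IK → ℤ
  | k, [] => k.t
  | _, k' :: r => lastI k' r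

def tangentB (L : Leaf) : Bool :=
  decide (0 < L.W) &&
  bif L.tube then
    decide (unitS * unitS ≤ 2 * L.al * L.W) && decide (314159266 * L.W ≤ 200000000 * L.be)
  else
    decide (2 * 24179920 * unitS * unitS ≤ 30000000 * L.al * L.W) &&
    decide (24179920 * L.W * L.W ≤ 30000000 * unitS * L.be)

/-- All conditions on a leaf but the one on its tangent. -/
def leafCore (B : Box) (L : Leaf) : Bool :=
  match L.ks with
  | k :: k' :: r =>
    validB (k :: k' :: r) && checkedB L (k :: k' :: r) && decide (0 ≤ L.mu) && decide (0 ≤ k.t) &&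
    decide (k.t ≤ B.a0) && decide (B.b1 ≤ lastI k (k' :: r)) &&
    decide (lastI k (k' :: r) ≤ unitS) &&
    decide (2 * L.al * B.v0 + 2 * L.be * unitS ≤ 2 * L.lam * B.v0 + 2 * L.E * unitS -
      2 * L.mu * min B.a1 B.v1 + trap2 (min B.a1 B.v1) (max B.b0 B.v0) (k :: k' :: r)) &&
    decide (2 * L.al * B.v1 + 2 * L.be * unitS ≤ 2 * L.lam * B.v1 + 2 * L.E * unitS -
      2 * L.mu * min B.a1 B.v1 + trap2 (min B.a1 B.v1) (max B.b0 B.v0) (k :: k' :: r))
  | _ => false

def leafB (B : Box) (L : Leaf) : Bool := leafCore B L && tangentB L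

def treeB : Tree → Box → Bool
  | .empty, B => decide (B.v1 < B.a0) || decide (B.b1 < B.v0)
  | .leaf L, B => leafB B L
  | .split ax m l r, B =>
    if ax = 0 then treeB l { B with v1 := m } && treeB r { B with v0 := m }
    else if ax = 1 then treeB l { B with a1 := m } && treeB r { B with a0 := m }
    else treeB l { B with b1 := m } && treeB r { B with b0 := m }

/-- Integer to real. -/
def toR (n : ℤ) : ℝ := (n : ℝ) / 65536

def IK.real (k : IK) : Knot := ⟨toR k.t, toR k.c, toR k.s⟩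

lemma toR_le {m n : ℤ} : toR m ≤ toR n ↔ m ≤ n := by
  unfold toR
  rw [div_le_div_iff_of_pos_right (by norm_num : (0 : ℝ) < 65536), Int.cast_le]

lemma toR_lt {m n : ℤ} : toR m < toR n ↔ m < n := by
  unfold toR
  rw [div_lt_div_iff_of_pos_right (by norm_num : (0 : ℝ) < 65536), Int.cast_lt]

lemma toR_nonneg {n : ℤ} (h : 0 ≤ n) : 0 ≤ toR n :=
  div_nonneg (Int.cast_nonneg h) (by norm_num)

lemma toR_unit : toR unitS = 1 := by norm_num [toR]

lemma disc_real {k : IK} (h : disc k = true) :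
    0 ≤ k.real.c ∧ 0 ≤ k.real.s ∧ k.real.c ^ 2 + k.real.s ^ 2 ≤ 1 := by
  simp only [disc, Bool.and_eq_true, decide_eq_true_eq] at h
  obtain ⟨⟨h1, h2⟩, h3⟩ := h
  refine ⟨toR_nonneg h1, toR_nonneg h2, ?_⟩
  have h4 : ((k.c * k.c + k.s * k.s : ℤ) : ℝ) ≤ ((unitS * unitS : ℤ) : ℝ) := Int.cast_le.2 h3
  push_cast at h4
  simp only [IK.real, toR, div_pow]
  rw [← add_div, div_le_one (by norm_num)]
  linarith

lemma valid_real : ∀ l : List IK, validB l = true → Valid (l.map IK.real)
  | [], _ => trivial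
  | [k], h => disc_real h
  | k :: k' :: r, h => by
    simp only [validB, Bool.and_eq_true, decide_eq_true_eq] at h
    exact ⟨disc_real h.1.1, toR_lt.2 h.1.2, valid_real (k' :: r) h.2⟩

lemma pi_lo : (314159265 : ℝ) / 100000000 ≤ π :=
  le_trans (by norm_num) Real.pi_gt_d20.le

lemma q_lo : toR 20860 ≤ 1 / π := by
  rw [toR, le_div_iff₀ Real.pi_pos]
  have := Real.pi_lt_d20
  push_cast
  linarith

lemma q_hi : 1 / π ≤ toR 20861 := by
  rw [toR, div_le_iff₀ Real.pi_pos]
  have := Real.pi_gt_d20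
  push_cast
  linarith

lemma condI_real {L : Leaf} {k : IK} (hd : disc k = true) (h : condIB L k = true) :
    CondI (toR L.lam) (toR L.E) k.real := by
  simp only [condIB, Bool.and_eq_true, decide_eq_true_eq] at h
  obtain ⟨⟨hr, hq⟩, hl⟩ := h
  have hq' : ((k.r * k.r * 100000000 : ℤ) : ℝ) ≤
      ((314159265 * min k.t (unitS - k.t) * unitS : ℤ) : ℝ) := Int.cast_le.2 hq
  have hl' : ((L.lam * k.t + L.E * unitS : ℤ) : ℝ) ≤ ((k.c * k.r : ℤ) : ℝ) := Int.cast_le.2 hl
  push_cast at hq' hl'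
  have hm : min k.real.t (1 - k.real.t) = min (k.t : ℝ) (65536 - k.t) / 65536 := by
    rw [← min_div_div_right (by norm_num : (0 : ℝ) ≤ 65536)]
    simp [IK.real, toR, sub_div]
  have hm0 : 0 ≤ min (k.t : ℝ) (65536 - k.t) := by nlinarith [sq_nonneg (k.r : ℝ)]
  have hs : toR k.r ≤ Real.sqrt (π * min k.real.t (1 - k.real.t)) := by
    refine Real.le_sqrt_of_sq_le ?_
    rw [hm, toR, div_pow, div_le_iff₀ (by norm_num)]
    have := mul_le_mul_of_nonneg_right pi_lo hm0
    nlinarith
  refine le_trans ?_ (mul_le_mul_of_nonneg_left hs (disc_real hd).1)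
  simp only [IK.real, toR]
  rw [div_mul_div_comm, div_mul_div_comm, div_add_div _ _ (by norm_num) (by norm_num),
    div_le_div_iff₀ (by norm_num) (by norm_num)]
  linarith

lemma condII_real {L : Leaf} {k : IK} (h : condIIB L k = true) :
    CondII (toR L.lam) (toR L.E) (toR L.mu) (toR 20861) k.real := by
  simp only [condIIB, decide_eq_true_eq] at h
  have h' : ((L.lam * k.t + L.E * unitS - L.mu * (k.t - 20861) : ℤ) : ℝ) ≤
      ((k.c * unitS : ℤ) : ℝ) := Int.cast_le.2 h
  push_cast at h'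
  simp only [CondII, IK.real, toR]
  push_cast
  linarith

lemma checked_real {L : Leaf} : ∀ l : List IK, validB l = true → checkedB L l = true →
    Checked (toR L.lam) (toR L.E) (toR L.mu) (toR 20860) (toR 20861) (l.map IK.real)
  | [], _, _ => trivial
  | [_], hv, h => condI_real hv h
  | k :: k' :: r, hv, h => by
    simp only [checkedB, Bool.and_eq_true, Bool.or_eq_true, decide_eq_true_eq] at h
    simp only [validB, Bool.and_eq_true, decide_eq_true_eq] at hv
    obtain ⟨⟨h1, h2⟩, h3⟩ := h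
    refine ⟨condI_real hv.1.1 h1, ?_, checked_real (k' :: r) hv.2 h3⟩
    rcases h2 with (h | h) | h
    · exact Or.inl (toR_le.2 h)
    · refine Or.inr (Or.inl ?_)
      rw [← toR_unit]
      have h' : ((unitS - 20860 : ℤ) : ℝ) ≤ (k.t : ℝ) := Int.cast_le.2 h
      push_cast at h'
      simp only [IK.real, toR]
      push_cast
      linarith
    · exact Or.inr (Or.inr ⟨condII_real h.1, condII_real h.2⟩)

lemma trap_real (lo hi : ℤ) : ∀ l : List IK,
    trapIn (toR lo) (toR hi) (l.map IK.real) = (trap2 lo hi l : ℝ) / (2 * 65536 ^ 2)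
  | [] => by simp [trapIn, trap2]
  | [_] => by simp [trapIn, trap2]
  | k :: k' :: r => by
    have ih := trap_real lo hi (k' :: r)
    simp only [List.map] at ih
    simp only [List.map, trapIn, trap2, Int.cast_add]
    rw [ih, add_div]
    congr 1
    simp only [IK.real, toR_le]
    split_ifs with h
    · simp only [toR]; push_cast; ring
    · simp

lemma last_real : ∀ (r : List IK) (k : IK), lastT k.real (r.map IK.real) = toR (lastI k r)
  | [], _ => rfl
  | k' :: r, _ => last_real r k'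

/-- The ball is below each of its tangents. -/
lemma rpow_two_thirds_le {V w : ℝ} (hV : 0 ≤ V) (hw : 0 < w) :
    V ^ ((2 : ℝ) / 3) ≤ (2 * V / w + w ^ 2) / 3 := by
  obtain ⟨t, ht, rfl⟩ : ∃ t, 0 ≤ t ∧ t ^ 3 = V := by
    refine ⟨V ^ ((1 : ℝ) / 3), Real.rpow_nonneg hV _, ?_⟩
    rw [← Real.rpow_natCast _ 3, ← Real.rpow_mul hV]
    norm_num
  have e : (t ^ 3) ^ ((2 : ℝ) / 3) = t ^ 2 := by
    rw [← Real.rpow_natCast t 3, ← Real.rpow_mul ht, ← Real.rpow_natCast t 2]
    norm_num
  rw [e, div_add' _ _ _ hw.ne', div_div, le_div_iff₀ (by positivity)]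
  nlinarith [mul_nonneg (sq_nonneg (t - w)) (by positivity : 0 ≤ 2 * t + w)]

lemma cbrt_le : (36 * π) ^ ((1 : ℝ) / 3) ≤ 24179920 / 5000000 := by
  rw [show ((1 : ℝ) / 3) = ((3 : ℕ) : ℝ)⁻¹ by norm_num]
  refine (Real.rpow_inv_le_iff_of_pos (by positivity) (by norm_num) (by norm_num)).2 ?_
  rw [Real.rpow_natCast]
  have := Real.pi_lt_d20
  norm_num
  linarith

lemma tangent_real {L : Leaf} (h : tangentB L = true) {V : ℝ} (h0 : 0 ≤ V) (h1 : V ≤ 1 / 2) :
    candidate V ≤ 2 * (toR L.al * V + toR L.be) := by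
  simp only [tangentB, Bool.and_eq_true, decide_eq_true_eq] at h
  obtain ⟨hW, h⟩ := h
  have hw : 0 < toR L.W := div_pos (Int.cast_pos.2 hW) (by norm_num)
  have hW' : (0 : ℝ) < L.W := Int.cast_pos.2 hW
  rw [candidate, min_eq_left (a := V) (by linarith)]
  cases hL : L.tube
  · simp only [hL, cond_false, Bool.and_eq_true, decide_eq_true_eq] at h
    refine (min_le_left _ _).trans ((min_le_left _ _).trans ?_)
    refine (mul_le_mul cbrt_le (rpow_two_thirds_le h0 hw) (by positivity) (by norm_num)).trans ?_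
    have e1 : ((2 * 24179920 * unitS * unitS : ℤ) : ℝ) ≤ ((30000000 * L.al * L.W : ℤ) : ℝ) :=
      Int.cast_le.2 h.1
    have e2 : ((24179920 * L.W * L.W : ℤ) : ℝ) ≤ ((30000000 * unitS * L.be : ℤ) : ℝ) :=
      Int.cast_le.2 h.2
    push_cast at e1 e2
    have f1 : (24179920 : ℝ) / 15000000 * (2 / toR L.W) ≤ 2 * toR L.al := by
      simp only [toR]
      rw [div_div_eq_mul_div, div_mul_div_comm, ← mul_div_assoc,
        div_le_div_iff₀ (by positivity) (by norm_num)]
      linarith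
    have f2 : (24179920 : ℝ) / 15000000 * toR L.W ^ 2 ≤ 2 * toR L.be := by
      simp only [toR]
      rw [div_pow, div_mul_div_comm, ← mul_div_assoc,
        div_le_div_iff₀ (by positivity) (by norm_num)]
      linarith
    calc (24179920 : ℝ) / 5000000 * ((2 * V / toR L.W + toR L.W ^ 2) / 3)
        = 24179920 / 15000000 * (2 / toR L.W) * V + 24179920 / 15000000 * toR L.W ^ 2 := by ring
      _ ≤ 2 * toR L.al * V + 2 * toR L.be := add_le_add (mul_le_mul_of_nonneg_right f1 h0) f2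
      _ = _ := by ring
  · simp only [hL, cond_true, Bool.and_eq_true, decide_eq_true_eq] at h
    refine (min_le_left _ _).trans ((min_le_right _ _).trans ?_)
    have e1 : ((unitS * unitS : ℤ) : ℝ) ≤ ((2 * L.al * L.W : ℤ) : ℝ) := Int.cast_le.2 h.1
    have e2 : ((314159266 * L.W : ℤ) : ℝ) ≤ ((200000000 * L.be : ℤ) : ℝ) := Int.cast_le.2 h.2
    push_cast at e1 e2
    have f1 : 1 / (2 * toR L.W) ≤ toR L.al := by
      simp only [toR]
      rw [mul_div_assoc', one_div_div, div_le_div_iff₀ (by positivity) (by norm_num)]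
      linarith
    have f2 : π * toR L.W / 2 ≤ toR L.be := by
      have := mul_le_mul_of_nonneg_right (le_trans Real.pi_lt_d20.le
        (by norm_num : (3.14159265358979323847 : ℝ) ≤ 314159266 / 100000000)) hW'.le
      simp only [toR]
      rw [mul_div_assoc', div_div, div_le_div_iff₀ (by norm_num) (by norm_num)]
      linarith
    have f3 : √(π * V) ≤ 1 / (2 * toR L.W) * V + π * toR L.W / 2 := by
      refine Real.sqrt_le_iff.2 ⟨by positivity, ?_⟩
      have e : (1 / (2 * toR L.W) * V + π * toR L.W / 2) ^ 2 =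
          π * V + (1 / (2 * toR L.W) * V - π * toR L.W / 2) ^ 2 := by field_simp; ring
      rw [e]
      nlinarith [sq_nonneg (1 / (2 * toR L.W) * V - π * toR L.W / 2)]
    have := mul_le_mul_of_nonneg_right f1 h0
    linarith

/-- Membership of a real point in a box. -/
def Box.Mem (B : Box) (V a b : ℝ) : Prop :=
  (toR B.v0 ≤ V ∧ V ≤ toR B.v1) ∧ (toR B.a0 ≤ a ∧ a ≤ toR B.a1) ∧ (toR B.b0 ≤ b ∧ b ≤ toR B.b1)

theorem leafCore_lin {B : Box} {L : Leaf} (h : leafCore B L = true) {V a b p : ℝ}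
    (hS : Setting a b V p) (hm : B.Mem V a b) :
    toR L.al * V + toR L.be ≤ p := by
  unfold leafCore at h
  split at h
  swap
  · exact absurd h (by simp)
  rename_i k k' r _
  simp only [Bool.and_eq_true, decide_eq_true_eq] at h
  obtain ⟨⟨⟨⟨⟨⟨⟨⟨hv, hc⟩, hmu⟩, hk0⟩, hka⟩, hbl⟩, hl1⟩, hb0⟩, hb1⟩ := h
  obtain ⟨⟨hv0, hv1⟩, ⟨ha0, ha1⟩, ⟨hbb0, hbb1⟩⟩ := hm
  have hVa := hS.a_le
  have hVb := hS.le_b
  have hv' := valid_real _ hv
  have hc' := checked_real _ hv hc
  simp only [List.map] at hv' hc'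
  have hlast : lastT k.real (k'.real :: r.map IK.real) = toR (lastI k (k' :: r)) :=
    last_real (k' :: r) k
  set l : List Knot := k.real :: k'.real :: r.map IK.real with hl_def
  have hcc : Continuous (cFun l) := (Calib.continuous_interp (fun k => k.c ^ 2) _ hv').sqrt
  have hs := Calib.continuous_interp Knot.s _ hv'
  have hl1' : lastT k.real (k'.real :: r.map IK.real) ≤ 1 := by
    rw [hlast, ← toR_unit]; exact toR_le.2 hl1
  have hbl' : b ≤ lastT k.real (k'.real :: r.map IK.real) :=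
    hlast ▸ hbb1.trans (toR_le.2 hbl)
  have hka' : k.real.t ≤ a := (toR_le.2 hka).trans ha0
  have hmu' : 0 ≤ toR L.mu := toR_nonneg hmu
  have hcond : ∀ t ∈ Icc a b, _ := fun t ht =>
    T1.cond_on (x := t) hmu' q_lo q_hi (k'.real :: r.map IK.real) k.real (by simp) hv' hc'
      (toR_nonneg hk0) (hka'.trans ht.1) (ht.2.trans hbl') hl1'
  have hmas := hS.master (toR L.lam) (toR L.E) (toR L.mu) (cFun l) (interp Knot.s l) hmu' hcc hs
    (fun t => Real.sqrt_nonneg _) (fun t => (Calib.interp_disc _ hv' t).2.1)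
    (fun t => by rw [cFun, Real.sq_sqrt (T1.sq_disc _ hv' t).1]; exact (T1.sq_disc _ hv' t).2)
    (fun t ht => (hcond t ht).1) (fun t ht => (hcond t ht).2)
  set A1 : ℤ := min B.a1 B.v1 with hA1
  set B0 : ℤ := max B.b0 B.v0 with hB0
  have hA : a ≤ toR A1 := by
    rcases min_choice B.a1 B.v1 with e | e <;> rw [hA1, e]
    · exact ha1
    · exact hVa.trans hv1
  have hB : toR B0 ≤ b := by
    rcases max_choice B.b0 B.v0 with e | e <;> rw [hB0, e]
    · exact hbb0
    · exact hv0.trans hVb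
  have hab : a ≤ b := hVa.trans hVb
  have htr : trapIn (toR A1) (toR B0) l ≤ ∫ x in a..b, interp Knot.s l x := by
    have hnn : ∀ t, 0 ≤ interp Knot.s l t := fun t => (Calib.interp_disc _ hv' t).2.1
    refine (T1.trapIn_le _ _ _ _ hv').trans ?_
    rw [intervalIntegral.integral_of_le (lastT_ge _ _ hv'), intervalIntegral.integral_of_le hab,
      ← integral_Icc_eq_integral_Ioc, ← integral_Icc_eq_integral_Ioc,
      setIntegral_indicator measurableSet_Icc]
    refine setIntegral_mono_set hs.integrableOn_Icc (ae_of_all _ hnn) (LE.le.eventuallyLE ?_)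
    exact fun x hx => ⟨hA.trans hx.2.1, hx.2.2.trans hB⟩
  have htrap : trapIn (toR A1) (toR B0) l =
      (trap2 A1 B0 (k :: k' :: r) : ℝ) / (2 * 65536 ^ 2) := trap_real A1 B0 (k :: k' :: r)
  rw [htrap] at htr
  set T : ℤ := trap2 A1 B0 (k :: k' :: r)
  have hend : ∀ n : ℤ, 2 * L.al * n + 2 * L.be * unitS ≤
      2 * L.lam * n + 2 * L.E * unitS - 2 * L.mu * A1 + T →
      toR L.al * toR n + toR L.be ≤
        toR L.lam * toR n + toR L.E - toR L.mu * toR A1 + (T : ℝ) / (2 * 65536 ^ 2) := by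
    intro n hn
    have hn' : ((2 * L.al * n + 2 * L.be * unitS : ℤ) : ℝ) ≤
        ((2 * L.lam * n + 2 * L.E * unitS - 2 * L.mu * A1 + T : ℤ) : ℝ) := Int.cast_le.2 hn
    push_cast at hn'
    simp only [toR]
    linarith
  have e0 := hend _ hb0
  have e1 := hend _ hb1
  have hlin : toR L.al * V + toR L.be ≤
      toR L.lam * V + toR L.E - toR L.mu * toR A1 + (T : ℝ) / (2 * 65536 ^ 2) := by
    rcases le_total (toR L.al) (toR L.lam) with e | e
    · nlinarith [mul_le_mul_of_nonneg_left hv0 (sub_nonneg.2 e)]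
    · nlinarith [mul_le_mul_of_nonneg_left hv1 (sub_nonneg.2 e)]
  have := mul_le_mul_of_nonneg_left hA hmu'
  linarith

theorem leaf_lin {B : Box} {L : Leaf} (h : leafB B L = true) {V a b p : ℝ}
    (hS : Setting a b V p) (hm : B.Mem V a b) :
    tangentB L = true ∧ toR L.al * V + toR L.be ≤ p := by
  simp only [leafB, Bool.and_eq_true] at h
  exact ⟨h.2, leafCore_lin h.1 hS hm⟩

theorem leaf_sound {B : Box} {L : Leaf} (h : leafB B L = true) {V a b p : ℝ}
    (hS : Setting a b V p) (hm : B.Mem V a b) (hV : V ≤ 1 / 2) : candidate V ≤ 2 * p := by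
  obtain ⟨ht, hl⟩ := leaf_lin h hS hm
  have := tangent_real ht (hS.a_nonneg.trans hS.a_le) hV
  linarith

theorem tree_sound : ∀ (T : Tree) (B : Box), treeB T B = true → ∀ {V a b p : ℝ},
    Setting a b V p → B.Mem V a b → V ≤ 1 / 2 → candidate V ≤ 2 * p
  | .empty, B, h, V, a, b, p, hS, hm, _ => by
    obtain ⟨⟨hv0, hv1⟩, ⟨ha0, _⟩, ⟨_, hb1⟩⟩ := hm
    simp only [treeB, Bool.or_eq_true, decide_eq_true_eq] at h
    rcases h with h | h
    · exact absurd (toR_lt.2 h) (not_lt.2 (ha0.trans (hS.a_le.trans hv1)))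
    · exact absurd (toR_lt.2 h) (not_lt.2 ((hv0.trans hS.le_b).trans hb1))
  | .leaf _, _, h, _, _, _, _, hS, hm, hV => leaf_sound h hS hm hV
  | .split ax m l r, B, h, V, a, b, p, hS, hm, hV => by
    obtain ⟨hv, ha, hb⟩ := hm
    simp only [treeB] at h
    split_ifs at h <;> simp only [Bool.and_eq_true] at h
    · rcases le_total V (toR m) with e | e
      · exact tree_sound l _ h.1 hS ⟨⟨hv.1, e⟩, ha, hb⟩ hV
      · exact tree_sound r _ h.2 hS ⟨⟨e, hv.2⟩, ha, hb⟩ hV
    · rcases le_total a (toR m) with e | e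
      · exact tree_sound l _ h.1 hS ⟨hv, ⟨ha.1, e⟩, hb⟩ hV
      · exact tree_sound r _ h.2 hS ⟨hv, ⟨e, ha.2⟩, hb⟩ hV
    · rcases le_total b (toR m) with e | e
      · exact tree_sound l _ h.1 hS ⟨hv, ha, hb.1, e⟩ hV
      · exact tree_sound r _ h.2 hS ⟨hv, ha, e, hb.2⟩ hV

end Vale.Agent.P232.Phase1.Cover
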